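import Vale.Agent.P231.Main

open scoped Manifold ContDiff
open MeasureTheory Vale.Agent.P255 Vale.Agent.P234 Vale.Agent.P231

theorem Vale.Agent.Results.P231.VolumeRigidity.result (E : Type) [NormedAddCommGroup E]
    [NormedSpace ℝ E] [FiniteDimensional ℝ E] (M : Type) [MetricSpace M] [CompactSpace M]
    [ConnectedSpace M] [ChartedSpace E M] [IsManifold 𝓘(ℝ, E) ∞ M] [MeasurableSpace M]
    [BorelSpace M] (g : RMetric E M) (hd : IsGeodesicDist g) :
    (∀ (x : M) (v : E) (γ : ℝ → M),
      IsGeoFrom (E := E) g.inner x v γ ↔ γ = geo (E := E) g.inner x v) ∧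
    (IsBlaschke (E := E) g.inner → ∀ a : ℕ,
      (∀ (x : M) (v : E), √(g.inner x v v) = Metric.diam (Set.univ : Set M) →
        Module.finrank ℝ (LinearMap.ker (dexp (E := E) g.inner x v : E →ₗ[ℝ] E)) < a) →
      ENNReal.ofReal (modelVol (Module.finrank ℝ E) a (Metric.diam (Set.univ : Set M))) ≤
        (μHE[Module.finrank ℝ E] : Measure M) Set.univ ∧
      ((μHE[Module.finrank ℝ E] : Measure M) Set.univ ≤
        ENNReal.ofReal (modelVol (Module.finrank ℝ E) a (Metric.diam (Set.univ : Set M))) →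
          IsCross M)) :=
  ⟨geo_iff (rm_of_metric g hd), fun hb a ha => main (rm_of_metric g hd) hb a ha⟩
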